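import Vale.Agent.P309.Kaczmarz

namespace Vale.Agent.Results.P309.MemorySampleTradeoff

open MeasureTheory Vale.Agent.P309

universe u

/-- The memory-sample tradeoff for noiseless Gaussian linear regression with at most `c d^2`
bits: at least order `d log(1/ε)` samples are needed, that many suffice once `d log(d^2/ε) + O(d)`
bits are available, and with too few bits to hold the answer no horizon suffices. -/
theorem result :
    ∃ c : ℝ, 0 < c ∧ ∃ c' : ℝ, 0 < c' ∧ ∃ C : ℝ, 0 < C ∧ ∃ ε₀ : ℝ, 0 < ε₀ ∧ ∃ d₀ : ℕ,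
      ∀ d, d₀ ≤ d → ∀ ε : ℝ, 0 < ε → ε < ε₀ →
        (∀ K : ℕ, (K : ℝ) ≤ (2 : ℝ) ^ (c * (d : ℝ) ^ 2) →
          ∀ (Ω : Type u) [MeasurableSpace Ω] (A : Learner d K Ω) (P : Measure Ω)
            [IsProbabilityMeasure P] (T : ℕ),
            A.Succeeds P T ε → c' * d * Real.log (1 / ε) ≤ T) ∧
        (∀ K : ℕ, (C * (d : ℝ) ^ 2 / ε) ^ d ≤ K →
          ∃ (A : Learner d K PUnit.{u + 1}) (T : ℕ),
            (T : ℝ) ≤ C * d * Real.log (1 / ε) ∧
            (∀ t t' w ω, A.out t w ω = A.out t' w ω) ∧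
            A.Succeeds (Measure.dirac PUnit.unit) T ε) ∧
        (∀ K : ℕ, (K : ℝ) * (2 ^ d * ε ^ (d - 1)) < 2 / 3 →
          ∀ (Ω : Type u) [MeasurableSpace Ω] (A : Learner d K Ω) (P : Measure Ω)
            [IsProbabilityMeasure P] (T : ℕ),
            (∀ t t' w ω, A.out t w ω = A.out t' w ω) → ¬A.Succeeds P T ε) := by
  obtain ⟨d₀, h⟩ := samples_lower_bound.{u}
  refine ⟨1 / 64, by norm_num, 1 / 1000, by norm_num, 32, by norm_num, Real.exp (-80),
    Real.exp_pos _, max d₀ 2, fun d hd ε hε hε0 => ⟨?_, ?_, ?_⟩⟩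
  · intro K hK Ω _ A P _ T hs
    exact h d (le_trans (le_max_left _ _) hd) ε hε hε0 K hK Ω A P T hs
  · intro K hK
    have hd2 : 2 ≤ d := le_trans (le_max_right _ _) hd
    obtain ⟨A, T, hT, hout, hs⟩ := kaczmarz_upper.{u} d hd2 ε hε hε0 K hK
    refine ⟨A, T, hT.trans ?_, hout, hs⟩
    have hL : 0 ≤ Real.log (1 / ε) := by
      refine Real.log_nonneg ?_
      rw [one_div]
      refine one_le_inv_iff₀.2 ⟨hε, (hε0.le.trans ?_)⟩
      exact Real.exp_le_one_iff.2 (by norm_num)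
    gcongr
    norm_num
  · intro K hK Ω _ A P _ T hout
    obtain ⟨n, rfl⟩ : ∃ n, d = n + 1 := ⟨d - 1, by
      have := le_trans (le_max_right _ _) hd
      omega⟩
    exact counting_bound A P hout T hε (by simpa using hK)

end Vale.Agent.Results.P309.MemorySampleTradeoff
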